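import Vale.Agent.P153.R2.KPOS.H536.Law

/-!
# P153, KPOS: the hypotheses of the chain theorem
-/

namespace Vale.Agent.P153.R2.KPOS.H536

open Vale.Agent.P153 Vale.Agent.P153.Topo Vale.Agent.P153.F.RSW

/-- A family of laws `Q j` of random subsets of `ℤ × ℤ`, one for each scale `2 ^ j`, `j ∈ M`. `c0`:
probability of the crossings of rhombi and hexagons; `c`: loss in the change of the law; `δ`: error
of the approximate translation invariance. -/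
structure Chain (c0 c δ : ℝ) (M : Set ℕ) (Q : ℕ → Law) : Prop where
  c0_pos : 0 < c0
  c_pos : 0 < c
  c_le : c ≤ 1
  δ_nonneg : 0 ≤ δ
  δ_le : 24 * δ ≤ c0
  /-- exact symmetries of the hexagonal domains -/
  reflx : ∀ j ∈ M, ∀ E, IL E → (Q j).p (cp rx E) = (Q j).p E
  refly : ∀ j ∈ M, ∀ E, IL E → (Q j).p (cp ry E) = (Q j).p E
  swap : ∀ j ∈ M, ∀ E, IL E → (Q j).p (cp sw E) = (Q j).p E
  /-- approximate translation invariance -/
  shift : ∀ j ∈ M, ∀ a b : ℤ, |a| ≤ 40 * 2 ^ j → |b| ≤ 40 * 2 ^ j → ∀ E, IL E →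
    InBox (12 * 2 ^ j) E → (Q j).p E - δ ≤ (Q j).p (cp (sh a b) E)
  /-- rhombi -/
  sq : ∀ j ∈ M, ∀ h : ℤ, 2 ^ j ≤ h → h ≤ 6 * 2 ^ j → c0 ≤ (Q j).p (LRp 0 h 0 h)
  /-- hexagons -/
  hx : ∀ j ∈ M, c0 ≤ (Q j).p (HT 0 0 (2 ^ j) (-2 ^ j) (2 ^ j))
  /-- change of the law: an increasing event of a small scale, at any place of the large scale -/
  transfer : ∀ i ∈ M, ∀ j ∈ M, i < j → ∀ a b : ℤ, |a| ≤ 40 * 2 ^ j → |b| ≤ 40 * 2 ^ j →
    ∀ E, IL E → InBox (4 * 2 ^ i) E → ∃ P' : Law, c * P'.p E ≤ (Q j).p (cp (sh a b) E) ∧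
      ∀ F, IL F → InBox (4 * 2 ^ i) F → (Q i).p F - δ ≤ P'.p F
  /-- flatness: no circuits at large scales -/
  null : ∀ ε : ℝ, 0 < ε → ∃ j0 : ℕ, ∀ j ∈ M, j0 ≤ j → (Q j).p (Ann 0 0 (6 * 2 ^ j)) < ε

/-- The scales have positive upper density. -/
def Dense (M : Set ℕ) : Prop := by
  classical exact
    ∃ d : ℝ, 0 < d ∧ ∀ J0 : ℕ, ∃ J : ℕ, J0 ≤ J ∧ d * J ≤ ((Finset.range J).filter (· ∈ M)).card

/-- The chain theorem. -/
def S_chain : Prop := ∀ (c0 c δ : ℝ) (M : Set ℕ) (Q : ℕ → Law), Chain c0 c δ M Q → ¬ Dense M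

end Vale.Agent.P153.R2.KPOS.H536
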