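import Vale.Agent.P153.R2.KPOS.H536.Step

/-!
# P153, KPOS: the chain theorem
-/

namespace Vale.Agent.P153.R2.KPOS.H536

open Vale.Agent.P153 Vale.Agent.P153.Topo Vale.Agent.P153.F.RSW

/-- The lower bound for the base crossings. -/
noncomputable def bet (c0 c : ℝ) (K : ℕ) : ℝ := ee c0 ^ 2 * (c * ee c0 ^ 5) ^ (K + 1)

/-- The lower bound for the annulus event. -/
noncomputable def FF (c0 c : ℝ) (K : ℕ) : ℝ := (bet c0 c K * (ee c0 * bet c0 c K) ^ 19) ^ 4

section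

variable {c0 c δ : ℝ} {P : Law} {n : ℕ}

theorem bet_pos (h : At c0 δ P n) (hc : 0 < c) (K : ℕ) : 0 < bet c0 c K := by
  have := h.ee_pos
  unfold bet; positivity

theorem FF_pos (h : At c0 δ P n) (hc : 0 < c) (K : ℕ) : 0 < FF c0 c K := by
  have := h.ee_pos
  have := bet_pos h hc K
  unfold FF; positivity

theorem FF_mono (h : At c0 δ P n) (hc : 0 < c) (K : ℕ) {β : ℝ} (hβ : bet c0 c K ≤ β) :
    FF c0 c K ≤ (β * (ee c0 * β) ^ 19) ^ 4 := by
  have h1 := h.ee_pos.le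
  have h2 := (bet_pos h hc K).le
  have h3 : 0 ≤ β := h2.trans hβ
  unfold FF
  gcongr

theorem xle (h : At c0 δ P n) (hc : 0 < c) (hc1 : c ≤ 1) : c * ee c0 ^ 5 ≤ 1 := by
  have h1 := h.ee_pos.le
  have h2 : ee c0 ^ 5 ≤ 1 := pow_le_one₀ h1 h.ee_le
  calc c * ee c0 ^ 5 ≤ 1 * 1 := mul_le_mul hc1 h2 (by positivity) zero_le_one
    _ = 1 := one_mul 1

theorem bet_anti (h : At c0 δ P n) (hc : 0 < c) (hc1 : c ≤ 1) {K K' : ℕ} (hK : K' ≤ K) :
    bet c0 c K ≤ ee c0 ^ 2 * (c * ee c0 ^ 5) ^ (K' + 1) := by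
  have h1 := h.ee_pos.le
  unfold bet
  exact mul_le_mul_of_nonneg_left (pow_le_pow_of_le_one (by positivity) (xle h hc hc1) (by omega))
    (by positivity)

theorem bet_le1 (h : At c0 δ P n) (hc : 0 < c) (hc1 : c ≤ 1) (K : ℕ) (hK : 1 ≤ K) :
    bet c0 c K ≤ ee c0 ^ 10 := by
  have h1 := h.ee_pos.le
  refine (bet_anti h hc hc1 hK).trans ?_
  have h2 : ee c0 ^ 2 ≤ 1 := pow_le_one₀ h1 h.ee_le
  have h3 : c ^ 2 ≤ 1 := pow_le_one₀ hc.le hc1
  calc ee c0 ^ 2 * (c * ee c0 ^ 5) ^ (1 + 1) = ee c0 ^ 2 * c ^ 2 * ee c0 ^ 10 := by ring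
    _ ≤ 1 * 1 * ee c0 ^ 10 := by gcongr
    _ = ee c0 ^ 10 := by ring

theorem bet_le2 (h : At c0 δ P n) (hc : 0 < c) (hc1 : c ≤ 1) (K : ℕ) :
    bet c0 c K ≤ ee c0 ^ 2 := by
  have h1 := h.ee_pos.le
  have h2 : (c * ee c0 ^ 5) ^ (K + 1) ≤ 1 := pow_le_one₀ (by positivity) (xle h hc hc1)
  calc bet c0 c K = ee c0 ^ 2 * (c * ee c0 ^ 5) ^ (K + 1) := rfl
    _ ≤ ee c0 ^ 2 * 1 := by gcongr
    _ = ee c0 ^ 2 := by ring

/-- At a flat scale the threshold is less than `n / 2`. -/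
theorem al_lt_half (h : At c0 δ P n) (hc : 0 < c) (hc1 : c ≤ 1) {K : ℕ} (hK : 1 ≤ K)
    (hnull : P.p (Ann 0 0 (6 * n)) < FF c0 c K) : al c0 P n < n / 2 := by
  have h1 := h.ee_pos.le
  rcases At.al_le.lt_or_eq (a := al c0 P n) with h2 | h2
  · exact h2
  · exfalso
    have h3 := h.long le_rfl (by omega) (by positivity) (h.base1 h2)
    have h4 := FF_mono h hc K (bet_le1 h hc hc1 K hK)
    linarith

/-- At a flat scale the threshold is positive. -/
theorem al_pos (h : At c0 δ P n) (hn : 2 ≤ n) (hc : 0 < c) (hc1 : c ≤ 1) {K : ℕ}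
    (hnull : P.p (Ann 0 0 (6 * n)) < FF c0 c K) : 1 ≤ al c0 P n := by
  have h1 := h.ee_pos.le
  by_contra hcon
  have h3 := h.long (w := 6 * n) (by omega) le_rfl (by positivity) (h.base2 hn (by omega))
  have h4 := FF_mono h hc K (bet_le2 h hc hc1 K)
  linarith

/-- **One step of the chain.** -/
theorem step (h : At c0 δ P n) {P0 : Law} {m : ℕ} (h0 : At c0 δ P0 m) (hmn : 2 * m ≤ n)
    (hc : 0 < c) (hc1 : c ≤ 1) {K : ℕ} (hK : 1 ≤ K)
    (htr : ∀ a b : ℤ, |a| ≤ 40 * n → |b| ≤ 40 * n →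
      ∀ E, IL E → InBox (4 * m) E → ∃ P' : Law, c * P'.p E ≤ P.p (cp (sh a b) E) ∧
        ∀ F, IL F → InBox (4 * m) F → P0.p F - δ ≤ P'.p F)
    (hnull : P.p (Ann 0 0 (6 * n)) < FF c0 c K) (ha : 1 ≤ al c0 P0 m) :
    2 * (K + 1) * al c0 P0 m ≤ al c0 P n := by
  have he := h.ee_pos.le
  have hδ := h.δ_le
  have hc0 := h.c0_pos
  have hδ0 := h.δ_nonneg
  by_contra hcon
  push Not at hcon
  obtain ⟨a, hal⟩ : ∃ a : ℕ, a = al c0 P0 m := ⟨_, rfl⟩
  obtain ⟨N, hN⟩ : ∃ N : ℕ, N = al c0 P n := ⟨_, rfl⟩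
  have hNn := al_lt_half h hc hc1 hK hnull
  have ha2 : a ≤ m / 2 := hal ▸ At.al_le
  rw [← hal] at hcon ha
  rw [← hN] at hcon hNn
  have hapos : 0 < a := ha
  obtain ⟨K', hK'⟩ : ∃ K' : ℕ, K' = N / (2 * a) := ⟨_, rfl⟩
  have g1 : 2 * a * K' ≤ N := by rw [hK']; exact Nat.mul_div_le N (2 * a)
  have g2 : N < 2 * a * (K' + 1) := by rw [hK']; exact Nat.lt_mul_div_succ N (by omega)
  have g3 : K' ≤ K := by
    rw [hK']
    have : N < (K + 1) * (2 * a) := by
      calc N < 2 * (K + 1) * a := hcon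
        _ = (K + 1) * (2 * a) := by ring
    have := (Nat.div_lt_iff_lt_mul (by omega : 0 < 2 * a)).2 this
    omega
  have e1 : 2 * (a * (K' + 1)) = 2 * a * K' + 2 * a := by ring
  have e2 : 2 * a * (K' + 1) = 2 * a * K' + 2 * a := by ring
  rw [e2] at g2
  have g4 : 2 * (a * (K' + 1)) ≤ n := by rw [e1]; omega
  -- the landing event
  have h1 := P.union n 0 (2 * (a * (K' + 1) : ℕ)) n
  have h2 := h.half
  have h3 : P.p (HT 0 0 n ((N + 1 : ℕ) : ℤ) n) < c0 / 4 := At.al_lt (by omega) (by omega)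
  have h4 : P.p (HT 0 0 n (2 * (a * (K' + 1) : ℕ)) n) ≤ P.p (HT 0 0 n ((N + 1 : ℕ) : ℤ) n) :=
    P.HT_mono (by omega) le_rfl
  have h5 : c0 / 4 ≤ P.p (HT 0 0 n 0 (2 * (a * (K' + 1) : ℕ))) := by linarith
  -- the crosses
  have h6 : c0 / 4 ≤ P0.p (HT 0 0 m a m) := by rw [hal]; exact h0.al_ge
  obtain ⟨q1, q2, q3, q4, q5⟩ := h0.five h6
  have key : ∀ P' : Law, (∀ F, IL F → InBox (4 * m) F → P0.p F - δ ≤ P'.p F) →
      ee c0 ^ 5 ≤ P'.p (XX 0 0 m a) := by
    intro P' hP'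
    refine At.XX_fkg P' he ?_ ?_ ?_ ?_ ?_
    · have := hP' _ (IL_HT 0 0 m (0 + a) (0 + m)) (InBox_HT _ _ _); linarith
    · have := hP' _ (IL_HT 0 0 m (0 - m) (0 - a)) (InBox_HT _ _ _); linarith
    · have := hP' _ (IL_HM 0 0 m (0 + a) (0 + m)) (InBox_HM _ _ _); linarith
    · have := hP' _ (IL_HM 0 0 m (0 - m) (0 - a)) (InBox_HM _ _ _); linarith
    · have := hP' _ (IL_CT 0 0 m) (InBox_CT _); linarith
  have hsw : ∀ E : Set (ℤ × ℤ) → Prop, IL E → P0.p (cp sw E) = P0.p E := h0.swap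
  have keysw : ∀ P' : Law, (∀ F, IL F → InBox (4 * m) F → P0.p F - δ ≤ P'.p F) →
      ee c0 ^ 5 ≤ P'.p (cp sw (XX 0 0 m a)) := by
    intro P' hP'
    -- the law of the reflected set
    let P'' : Law :=
      { p := fun E => P'.p (cp sw E)
        nonneg := fun E => P'.nonneg _
        le_one := fun E => P'.le_one _
        mono := fun E F hEF => P'.mono _ _ fun S hS => hEF _ hS
        or_le := fun E F => P'.or_le _ _
        fkg := fun E F hE hF => P'.fkg _ _ (IL_cp_sw hE) (IL_cp_sw hF) }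
    refine key P'' fun F hF hb => ?_
    have := hP' (cp sw F) (IL_cp_sw hF) hb.sw
    rw [hsw F hF] at this
    exact this
  have hX : P.LB (40 * n) (XX 0 0 m a) (c * ee c0 ^ 5) := by
    intro x y hx hy
    constructor
    · obtain ⟨P', hP1, hP2⟩ := htr x y hx hy _ (IL_XX 0 0 m a) (InBox_XX m a)
      exact (mul_le_mul_of_nonneg_left (key P' hP2) hc.le).trans hP1
    · obtain ⟨P', hP1, hP2⟩ := htr x y hx hy _ (IL_cp_sw (IL_XX 0 0 m a)) (InBox_XX m a).sw
      exact (mul_le_mul_of_nonneg_left (keysw P' hP2) hc.le).trans hP1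
  obtain ⟨w, hw1, hw2, hw3⟩ := h.base3 h0.pos hmn (by positivity) hX g4 h5
  have h7 := h.long hw1 hw2 (by positivity) hw3
  have h8 := FF_mono h hc K (bet_anti h hc hc1 g3)
  linarith

end

theorem Chain.at {c0 c δ : ℝ} {M : Set ℕ} {Q : ℕ → Law} (h : Chain c0 c δ M Q) {j : ℕ}
    (hj : j ∈ M) (hj1 : 1 ≤ j) : At c0 δ (Q j) (2 ^ j) where
  c0_pos := h.c0_pos
  δ_nonneg := h.δ_nonneg
  δ_le := h.δ_le
  reflx := h.reflx j hj
  refly := h.refly j hj
  swap := h.swap j hj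
  shift := fun a b ha hb E hE hb' => by
    refine h.shift j hj a b ?_ ?_ E hE ?_
    · exact_mod_cast ha
    · exact_mod_cast hb
    · exact_mod_cast hb'
  sq := fun x h1 h2 => h.sq j hj x (by exact_mod_cast h1) (by exact_mod_cast h2)
  hx := by
    have := h.hx j hj
    exact_mod_cast this
  pos := by positivity
  even := by
    obtain ⟨k, rfl⟩ : ∃ k, j = k + 1 := ⟨j - 1, by omega⟩
    rw [pow_succ]
    omega

/-- **The chain theorem.** -/
theorem chain : S_chain := by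
  classical
  rintro c0 c δ M Q h ⟨d, hd, hden⟩
  have hc := h.c_pos
  have hc1 := h.c_le
  -- the factor
  obtain ⟨p, hp⟩ : ∃ p : ℕ, 2 / d ≤ p := exists_nat_ge _
  obtain ⟨K, hK⟩ : ∃ K : ℕ, K = 2 ^ p := ⟨_, rfl⟩
  have hK1 : 1 ≤ K := by rw [hK]; exact Nat.one_le_two_pow
  by_cases hM : ∃ j, j ∈ M ∧ 1 ≤ j
  swap
  · -- no scales
    push Not at hM
    obtain ⟨J, hJ0, hJ⟩ := hden (⌈2 / d⌉₊ + 1)
    have h1 : ((Finset.range J).filter (· ∈ M)).card ≤ 1 := by
      refine (Finset.card_le_card (t := {0}) ?_).trans (by simp)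
      intro x hx
      have := hM x (Finset.mem_filter.1 hx).2
      simp
      omega
    have h2 : 2 / d < J := by
      refine lt_of_le_of_lt (Nat.le_ceil _) ?_
      exact_mod_cast (by omega : ⌈2 / d⌉₊ < J)
    have h3 : 2 < d * J := by
      rw [div_lt_iff₀ hd] at h2
      linarith
    have h4 : ((((Finset.range J).filter (· ∈ M)).card : ℕ) : ℝ) ≤ 1 := by exact_mod_cast h1
    linarith
  obtain ⟨j1, hj1M, hj1⟩ := hM
  have hFF : 0 < FF c0 c K := FF_pos (h.at hj1M hj1) hc K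
  obtain ⟨j0, hj0⟩ := h.null _ hFF
  obtain ⟨J1, hJ1⟩ : ∃ J1 : ℕ, J1 = max j0 1 := ⟨_, rfl⟩
  -- induction along the scales
  have key : ∀ J : ℕ, ∀ j ∈ M, J1 ≤ j → j ≤ J →
      2 ^ (p * ((Finset.Ico J1 j).filter (· ∈ M)).card) ≤ al c0 (Q j) (2 ^ j) := by
    intro J
    induction J with
    | zero =>
      intro j hj h1 h2
      omega
    | succ J ih =>
      intro j hj h1 h2
      have hA := h.at hj (by omega)
      have hnull : (Q j).p (Ann 0 0 (6 * ((2 ^ j : ℕ) : ℤ))) < FF c0 c K := by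
        have := hj0 j hj (by omega)
        exact_mod_cast this
      have h2n : 2 ≤ 2 ^ j := by
        calc 2 = 2 ^ 1 := (pow_one 2).symm
          _ ≤ 2 ^ j := Nat.pow_le_pow_right (by norm_num) (by omega)
      rcases Nat.eq_zero_or_pos ((Finset.Ico J1 j).filter (· ∈ M)).card with h3 | h3
      · rw [h3, mul_zero, pow_zero]
        exact al_pos hA h2n hc hc1 hnull
      · -- the previous scale
        obtain ⟨i, hi⟩ : ∃ i, i = ((Finset.Ico J1 j).filter (· ∈ M)).max' (Finset.card_pos.1 h3) :=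
          ⟨_, rfl⟩
        have hi1 : i ∈ (Finset.Ico J1 j).filter (· ∈ M) := hi ▸ Finset.max'_mem _ _
        obtain ⟨hi2, hiM⟩ := Finset.mem_filter.1 hi1
        rw [Finset.mem_Ico] at hi2
        have h4 : (Finset.Ico J1 j).filter (· ∈ M) = insert i ((Finset.Ico J1 i).filter (· ∈ M)) := by
          ext x
          rw [Finset.mem_insert, Finset.mem_filter, Finset.mem_filter, Finset.mem_Ico,
            Finset.mem_Ico]
          constructor
          · rintro ⟨hx1, hx2⟩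
            have hx3 : x ≤ i := by
              rw [hi]
              exact Finset.le_max' _ _ (Finset.mem_filter.2 ⟨Finset.mem_Ico.2 hx1, hx2⟩)
            rcases hx3.lt_or_eq with h5 | h5
            · exact Or.inr ⟨⟨hx1.1, h5⟩, hx2⟩
            · exact Or.inl h5
          · rintro (rfl | ⟨hx1, hx2⟩)
            · exact ⟨⟨hi2.1, hi2.2⟩, hiM⟩
            · exact ⟨⟨hx1.1, by omega⟩, hx2⟩
        have h5 : ((Finset.Ico J1 j).filter (· ∈ M)).card =
            ((Finset.Ico J1 i).filter (· ∈ M)).card + 1 := by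
          rw [h4, Finset.card_insert_of_notMem]
          rw [Finset.mem_filter, Finset.mem_Ico]
          rintro ⟨⟨_, h6⟩, _⟩
          omega
        have h6 := ih i hiM hi2.1 (by omega)
        have hB := h.at hiM (by omega)
        have h7 : 1 ≤ al c0 (Q i) (2 ^ i) := le_trans Nat.one_le_two_pow h6
        have h8 : 2 * 2 ^ i ≤ 2 ^ j := by
          calc 2 * 2 ^ i = 2 ^ (i + 1) := by rw [pow_succ]; ring
            _ ≤ 2 ^ j := Nat.pow_le_pow_right (by norm_num) (by omega)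
        have h9 := step hA hB h8 hc hc1 hK1 (fun a b ha hb E hE hb' => by
          obtain ⟨P', hP1, hP2⟩ := h.transfer i hiM j hj (by omega) a b (by exact_mod_cast ha)
            (by exact_mod_cast hb) E hE (by exact_mod_cast hb')
          exact ⟨P', hP1, fun F hF hFb => hP2 F hF (by exact_mod_cast hFb)⟩) hnull h7
        rw [h5]
        calc 2 ^ (p * (((Finset.Ico J1 i).filter (· ∈ M)).card + 1)) =
              K * 2 ^ (p * ((Finset.Ico J1 i).filter (· ∈ M)).card) := by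
                rw [hK, mul_add, pow_add, mul_one]; ring
          _ ≤ K * al c0 (Q i) (2 ^ i) := Nat.mul_le_mul_left _ h6
          _ ≤ 2 * (K + 1) * al c0 (Q i) (2 ^ i) := Nat.mul_le_mul_right _ (by omega)
          _ ≤ _ := h9
  -- the end
  obtain ⟨J, hJ0, hJ⟩ := hden (⌈(J1 + 2 : ℝ) * (2 / d) + 2⌉₊ + 1)
  have hJr : (J1 + 2 : ℝ) * (2 / d) + 2 < J := by
    refine lt_of_le_of_lt (Nat.le_ceil _) ?_
    exact_mod_cast (by omega : ⌈(J1 + 2 : ℝ) * (2 / d) + 2⌉₊ < J)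
  have hJd : 2 * (J1 + 2 : ℝ) < d * J := by
    have h1 : (J1 + 2 : ℝ) * (2 / d) < J := by linarith
    have h2 : (J1 + 2 : ℝ) * 2 / d < J := by rw [mul_div_assoc]; exact h1
    rw [div_lt_iff₀ hd] at h2
    linarith
  have hcard : ((Finset.range J).filter (· ∈ M)).card ≤
      J1 + ((Finset.Ico J1 J).filter (· ∈ M)).card := by
    have h1 : (Finset.range J).filter (· ∈ M) ⊆
        Finset.range J1 ∪ (Finset.Ico J1 J).filter (· ∈ M) := by
      intro x hx
      rw [Finset.mem_filter, Finset.mem_range] at hx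
      rw [Finset.mem_union, Finset.mem_range, Finset.mem_filter, Finset.mem_Ico]
      rcases Nat.lt_or_ge x J1 with h2 | h2
      · exact Or.inl h2
      · exact Or.inr ⟨⟨h2, hx.1⟩, hx.2⟩
    calc _ ≤ (Finset.range J1 ∪ (Finset.Ico J1 J).filter (· ∈ M)).card := Finset.card_le_card h1
      _ ≤ (Finset.range J1).card + ((Finset.Ico J1 J).filter (· ∈ M)).card :=
          Finset.card_union_le _ _
      _ = _ := by rw [Finset.card_range]
  obtain ⟨N, hN⟩ : ∃ N : ℕ, N = ((Finset.Ico J1 J).filter (· ∈ M)).card := ⟨_, rfl⟩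
  rw [← hN] at hcard
  have hcr : d * J ≤ J1 + N := by
    refine hJ.trans ?_
    exact_mod_cast hcard
  have hNr : d * J / 2 + 2 < N := by linarith
  have hNpos : 0 < N := by
    have h1 : (0 : ℝ) < N := by
      have : 0 < d * J := by
        have : (0 : ℝ) ≤ J1 := Nat.cast_nonneg _
        linarith
      linarith
    exact_mod_cast h1
  obtain ⟨j, hj⟩ : ∃ j, j = ((Finset.Ico J1 J).filter (· ∈ M)).max'
      (Finset.card_pos.1 (by rw [← hN]; exact hNpos)) := ⟨_, rfl⟩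
  have hj1 : j ∈ (Finset.Ico J1 J).filter (· ∈ M) := hj ▸ Finset.max'_mem _ _
  obtain ⟨hj2, hjM⟩ := Finset.mem_filter.1 hj1
  rw [Finset.mem_Ico] at hj2
  have h4 : (Finset.Ico J1 J).filter (· ∈ M) ⊆ insert j ((Finset.Ico J1 j).filter (· ∈ M)) := by
    intro x hx
    have hx3 : x ≤ j := by
      rw [hj]
      exact Finset.le_max' _ _ hx
    rw [Finset.mem_filter, Finset.mem_Ico] at hx
    rw [Finset.mem_insert, Finset.mem_filter, Finset.mem_Ico]
    rcases hx3.lt_or_eq with h5 | h5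
    · exact Or.inr ⟨⟨hx.1.1, h5⟩, hx.2⟩
    · exact Or.inl h5
  have h5 : N ≤ ((Finset.Ico J1 j).filter (· ∈ M)).card + 1 := by
    rw [hN]
    exact (Finset.card_le_card h4).trans (Finset.card_insert_le _ _)
  have h6 := key j j hjM hj2.1 le_rfl
  have h7 : al c0 (Q j) (2 ^ j) ≤ 2 ^ j := At.al_le.trans (Nat.div_le_self _ _)
  have h8 : p * ((Finset.Ico J1 j).filter (· ∈ M)).card ≤ j := by
    by_contra hcon
    have := Nat.pow_lt_pow_right (a := 2) (by norm_num) (not_le.1 hcon)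
    omega
  have h9 : p * (N - 1) ≤ j := le_trans (Nat.mul_le_mul_left _ (by omega)) h8
  have h10 : (p : ℝ) * (N - 1) ≤ j := by
    have : ((p * (N - 1) : ℕ) : ℝ) ≤ j := by exact_mod_cast h9
    rw [Nat.cast_mul, Nat.cast_sub hNpos, Nat.cast_one] at this
    exact this
  have h11 : (j : ℝ) ≤ J := by exact_mod_cast hj2.2.le
  have h12 : 2 / d * (d * J / 2 + 1) ≤ p * ((N : ℝ) - 1) := by
    refine mul_le_mul hp (by linarith) ?_ (by positivity)
    have : 0 < d * J := by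
      have : (0 : ℝ) ≤ J1 := Nat.cast_nonneg _
      linarith
    linarith
  have h13 : 2 / d * (d * J / 2 + 1) = J + 2 / d := by
    field_simp
  have h14 : 0 < 2 / d := by positivity
  linarith

end Vale.Agent.P153.R2.KPOS.H536
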