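import Vale.Agent.P153.Bd5.B5

/-!
# P153, KPOS: barriers made of shifted crosses
-/

namespace Vale.Agent.P153.R2.KPOS.H536

open Vale.Agent.P153 Vale.Agent.P153.Topo Vale.Agent.P153.F.RSW

/-- A cluster of `S` in the slab `|j| ≤ 4 m` between the columns `A` and `B` which joins the parts
left of `L` and right of `R` of the top and of the bottom side. -/
def Bar (m L R A B : ℤ) (S : Set (ℤ × ℤ)) : Prop :=
  ∃ o t1 t2 b1 b2 : ℤ × ℤ,
    Conn (S ∩ Rect A B (-(4 * m)) (4 * m)) o t1 ∧ Conn (S ∩ Rect A B (-(4 * m)) (4 * m)) o t2 ∧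
    Conn (S ∩ Rect A B (-(4 * m)) (4 * m)) o b1 ∧ Conn (S ∩ Rect A B (-(4 * m)) (4 * m)) o b2 ∧
    t1.2 = 4 * m ∧ 4 * R ≤ 2 * t1.1 + t1.2 ∧ t2.2 = 4 * m ∧ 2 * t2.1 + t2.2 ≤ 4 * L ∧
    b1.2 = -(4 * m) ∧ 4 * R ≤ 2 * b1.1 + b1.2 ∧ b2.2 = -(4 * m) ∧ 2 * b2.1 + b2.2 ≤ 4 * L

theorem Bar.of_XX {m t a A B : ℤ} {S : Set (ℤ × ℤ)} (hA : A ≤ 2 * (t - 2 * m))
    (hB : 2 * (t + 2 * m) ≤ B) (h : XX 0 t m a S) : Bar m (t - a) (t + a) A B S := by
  obtain ⟨o, t1, t2, b1, b2, r, g1, g2, g3, g4, _, e1, e2, e3, e4, e5, e6, e7, e8, _, _⟩ :=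
    h.cluster
  have hs : S ∩ hex 0 t m ⊆ S ∩ Rect A B (-(4 * m)) (4 * m) := by
    rintro z ⟨h1, h2⟩
    refine ⟨h1, ?_⟩
    rw [mem_hex] at h2
    rw [mem_rect]
    omega
  exact ⟨o, t1, t2, b1, b2, g1.mono hs, g2.mono hs, g3.mono hs, g4.mono hs, by omega, by omega,
    by omega, by omega, by omega, by omega, by omega, by omega⟩

theorem Bar.glue {m L R L' R' A B : ℤ} {S : Set (ℤ × ℤ)} (h1 : Bar m L R A B S)
    (h2 : Bar m L' R' A B S) (hLR : L' ≤ R) (hLR' : L ≤ R') : Bar m L R' A B S := by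
  obtain ⟨o, t1, t2, b1, b2, g1, g2, g3, g4, e1, e2, e3, e4, e5, e6, e7, e8⟩ := h1
  obtain ⟨o', t1', t2', b1', b2', g1', g2', g3', g4', e1', e2', e3', e4', e5', e6', e7', e8'⟩ := h2
  obtain ⟨z, hz1, hz2⟩ := interV (S := S ∩ Rect A B (-(4 * m)) (4 * m))
    (T := S ∩ Rect A B (-(4 * m)) (4 * m)) (a := A) (b := B) (c := -(4 * m)) (d := 4 * m)
    Set.inter_subset_right Set.inter_subset_right (g3.symm.trans g2) (by omega) (by omega)
    (g4'.symm.trans g1') (by omega) (by omega) (by omega) (by omega)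
  have k1 : Conn (S ∩ Rect A B (-(4 * m)) (4 * m)) o o' :=
    (g3.trans hz1).trans (g4'.trans hz2).symm
  exact ⟨o, t1', t2, b1', b2, k1.trans g1', g2, k1.trans g3', g4, e1', e2', e3, e4, e5', e6', e7,
    e8⟩

/-- `K + 1` crosses shifted by `2 a`. -/
theorem bar_XX {m q a A B : ℤ} {S : Set (ℤ × ℤ)} (ha : 0 ≤ a) (K : ℕ)
    (hA : A ≤ 2 * (q - 2 * m)) (hB : 2 * (q + 2 * a * K + 2 * m) ≤ B)
    (h : ∀ k : ℕ, k ≤ K → XX 0 (q + 2 * a * k) m a S) :
    Bar m (q - a) (q + 2 * a * K + a) A B S := by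
  induction K with
  | zero =>
    have := h 0 le_rfl
    simp only [Nat.cast_zero, mul_zero, add_zero] at this hB ⊢
    exact Bar.of_XX hA hB this
  | succ K ih =>
    have hk : (0 : ℤ) ≤ 2 * a * K := by positivity
    have e : 2 * a * ((K + 1 : ℕ) : ℤ) = 2 * a * K + 2 * a := by push_cast; ring
    rw [e] at hB ⊢
    have h1 := ih (by omega) fun k hk => h k (by omega)
    have h2 := h (K + 1) le_rfl
    rw [e] at h2
    have h3 : Bar m (q + (2 * a * K + 2 * a) - a) (q + (2 * a * K + 2 * a) + a) A B S :=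
      Bar.of_XX (by omega) (by omega) h2
    have h4 := h1.glue h3 (by omega) (by omega)
    have e2 : q + (2 * a * K + 2 * a) + a = q + (2 * a * ↑K + 2 * a) + a := rfl
    exact h4

/-- Two paths landing in the middle parts of the top and of the bottom side of a slab are joined by
a barrier. -/
theorem f1K (n m v b A B : ℤ) (S : Set (ℤ × ℤ)) (hm : 0 < m) (hmn : m ≤ n)
    (hA : 2 * (-v - (3 * n - m)) ≤ A) (hB : B ≤ 2 * (-v + (3 * n - m)))
    (hl : HT (m - n) (-v) n (-b) b S) (hr : HM (n - m) (-v) n (-b) b S)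
    (hX : Bar m (-b) b A B S) :
    BTp (-v - (3 * n - m)) (-v + (3 * n - m)) (-(4 * n - 2 * m)) (4 * n - 2 * m) S := by
  obtain ⟨o, t1, t2, b1, b2, g1, g2, g3, g4, e1, e2, e3, e4, e5, e6, e7, e8⟩ := hX
  obtain ⟨x, x', hx, hxa, hxb, hxc, hxd⟩ := hl
  obtain ⟨y, y', hy, hya, hyb, hyc, hyd⟩ := hr
  have s0 : Rect A B (-(4 * m)) (4 * m) ⊆ pr (-v - (3 * n - m)) (-v + (3 * n - m))
      (-(4 * n - 2 * m)) (4 * n - 2 * m) := by
    intro z hz
    rw [mem_rect] at hz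
    rw [mem_pr]
    omega
  have s1 : hex (m - n) (-v) n ⊆ pr (-v - (3 * n - m)) (-v + (3 * n - m)) (-(4 * n - 2 * m))
      (4 * n - 2 * m) := by
    intro z hz
    rw [mem_hex] at hz
    rw [mem_pr]
    omega
  have s2 : hex (n - m) (-v) n ⊆ pr (-v - (3 * n - m)) (-v + (3 * n - m)) (-(4 * n - 2 * m))
      (4 * n - 2 * m) := by
    intro z hz
    rw [mem_hex] at hz
    rw [mem_pr]
    omega
  obtain ⟨z, hz1, hz2⟩ := landT (S := S ∩ hex (m - n) (-v) n)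
    (T := S ∩ Rect A B (-(4 * m)) (4 * m))
    (a := 2 * (-v - (3 * n - m))) (b := 2 * (-v + (3 * n - m))) (c := 4 * (m - 2 * n))
    (d := 4 * m)
    (by
      intro z hz
      have := hz.2
      rw [mem_hex] at this
      rw [mem_rect]
      omega)
    (by
      intro z hz
      have := hz.2
      rw [mem_rect] at this ⊢
      omega)
    hx (by omega) (by omega) (g2.symm.trans g1) (by omega) (by omega) (by omega) (by omega)
  obtain ⟨w, hw1, hw2⟩ := landB (S := S ∩ hex (n - m) (-v) n)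
    (T := S ∩ Rect A B (-(4 * m)) (4 * m))
    (a := 2 * (-v - (3 * n - m))) (b := 2 * (-v + (3 * n - m))) (c := -(4 * m))
    (d := 4 * (2 * n - m))
    (by
      intro z hz
      have := hz.2
      rw [mem_hex] at this
      rw [mem_rect]
      omega)
    (by
      intro z hz
      have := hz.2
      rw [mem_rect] at this ⊢
      omega)
    hy (by omega) (by omega) (g4.symm.trans g3) (by omega) (by omega) (by omega) (by omega)
  have k1 := c_join s1 s0 hz1 hz2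
  have k2 := c_join s2 s0 hw1 hw2
  have k3 := (g2.symm.trans g4).mono (Set.inter_subset_inter_right S s0)
  exact ⟨x, y, (k1.trans k3).trans k2.symm, by omega, by omega⟩

/-- Paths from below to the point `(k, 0)`. -/
def HP (t k : ℤ) (S : Set (ℤ × ℤ)) : Prop :=
  ∃ x, Conn (S ∩ hex (-t) 0 t) x (k, 0) ∧ x.2 = -(8 * t)

/-- Paths from above to the point `(k, 0)`. -/
def HQ (t k : ℤ) (S : Set (ℤ × ℤ)) : Prop :=
  ∃ x, Conn (S ∩ hex t 0 t) x (k, 0) ∧ x.2 = 8 * t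

theorem HP_join {t k : ℤ} {S : Set (ℤ × ℤ)} (ht : 0 ≤ t) (h1 : HP t k S) (h2 : HQ t k S) :
    BTp (-(3 * t)) (3 * t) (-(4 * t)) (4 * t) S := by
  obtain ⟨x, hx, hxa⟩ := h1
  obtain ⟨y, hy, hya⟩ := h2
  have s1 : hex (-t) 0 t ⊆ pr (-(3 * t)) (3 * t) (-(4 * t)) (4 * t) := by
    intro z hz
    rw [mem_hex] at hz
    rw [mem_pr]
    omega
  have s2 : hex t 0 t ⊆ pr (-(3 * t)) (3 * t) (-(4 * t)) (4 * t) := by
    intro z hz
    rw [mem_hex] at hz
    rw [mem_pr]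
    omega
  exact ⟨x, y, c_join s1 s2 hx hy, by omega, by omega⟩

theorem HT_cases {t : ℤ} {S : Set (ℤ × ℤ)} (h : HT (-t) 0 t 0 1 S) :
    HP t 0 S ∨ HP t 1 S ∨ HP t 2 S := by
  obtain ⟨x, ⟨y1, y2⟩, hx, hxa, hxb, hxc, hxd⟩ := h
  simp only at hxb hxc hxd
  have h2 : y2 = 0 := by omega
  subst h2
  have h3 : y1 = 0 ∨ y1 = 1 ∨ y1 = 2 := by omega
  rcases h3 with rfl | rfl | rfl
  · exact Or.inl ⟨x, hx, by omega⟩
  · exact Or.inr (Or.inl ⟨x, hx, by omega⟩)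
  · exact Or.inr (Or.inr ⟨x, hx, by omega⟩)

end Vale.Agent.P153.R2.KPOS.H536
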