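import Vale.Agent.P153.R2.KPOS.H536.GeoK

/-!
# P153, KPOS: positively associated laws and copies of events
-/

namespace Vale.Agent.P153.R2.KPOS.H536

open Vale.Agent.P153 Vale.Agent.P153.Topo Vale.Agent.P153.F.RSW

/-- `p E` is the probability of the event `E` for a random subset of `ℤ × ℤ`. -/
structure Law where
  /-- probability of an event -/
  p : (Set (ℤ × ℤ) → Prop) → ℝ
  nonneg : ∀ E, 0 ≤ p E
  le_one : ∀ E, p E ≤ 1
  mono : ∀ E F : Set (ℤ × ℤ) → Prop, (∀ S, E S → F S) → p E ≤ p F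
  or_le : ∀ E F : Set (ℤ × ℤ) → Prop, p (fun S => E S ∨ F S) ≤ p E + p F
  fkg : ∀ E F : Set (ℤ × ℤ) → Prop, IL E → IL F → p E * p F ≤ p (fun S => E S ∧ F S)

/-- The copy of an event under a map of the lattice. -/
def cp (g : ℤ × ℤ → ℤ × ℤ) (E : Set (ℤ × ℤ) → Prop) : Set (ℤ × ℤ) → Prop :=
  fun S => E {z | g z ∈ S}

/-- Shift by `(2 a, 2 b)`. -/
def sh (a b : ℤ) : ℤ × ℤ → ℤ × ℤ := fun z => (z.1 + 2 * a, z.2 + 2 * b)

/-- The reflection `(i, j) ↦ (j, i)`. -/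
def sw : ℤ × ℤ → ℤ × ℤ := fun z => (z.2, z.1)

/-- The reflection `(i, j) ↦ (-i-j, j)`. -/
def rx : ℤ × ℤ → ℤ × ℤ := fun z => (-z.1 - z.2, z.2)

/-- The reflection `(i, j) ↦ (i+j, -j)`. -/
def ry : ℤ × ℤ → ℤ × ℤ := fun z => (z.1 + z.2, -z.2)

/-- The event depends on the points of the box `|i|, |j| ≤ N` only. -/
def InBox (N : ℤ) (E : Set (ℤ × ℤ) → Prop) : Prop :=
  ∀ S T : Set (ℤ × ℤ), (∀ z : ℤ × ℤ, |z.1| ≤ N → |z.2| ≤ N → (z ∈ S ↔ z ∈ T)) → E S → E T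

theorem InBox.mono {N M : ℤ} {E : Set (ℤ × ℤ) → Prop} (h : InBox N E) (hNM : N ≤ M) :
    InBox M E := fun S T hST hE => h S T (fun z h1 h2 => hST z (h1.trans hNM) (h2.trans hNM)) hE

theorem InBox.and {N : ℤ} {E F : Set (ℤ × ℤ) → Prop} (h : InBox N E) (h' : InBox N F) :
    InBox N (fun S => E S ∧ F S) := fun S T hST hE => ⟨h S T hST hE.1, h' S T hST hE.2⟩

theorem InBox.sw {N : ℤ} {E : Set (ℤ × ℤ) → Prop} (h : InBox N E) : InBox N (cp sw E) :=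
  fun _ _ hST hE => h _ _ (fun z h1 h2 => hST (z.2, z.1) h2 h1) hE

theorem InBox.ex {N : ℤ} {R : Set (ℤ × ℤ)} (hR : ∀ z ∈ R, |z.1| ≤ N ∧ |z.2| ≤ N)
    (P : ℤ × ℤ → ℤ × ℤ → Prop) : InBox N (fun S => ∃ x y, Conn (S ∩ R) x y ∧ P x y) := by
  rintro S T hST ⟨x, y, h, hp⟩
  refine ⟨x, y, h.mono ?_, hp⟩
  rintro z ⟨hz, hzR⟩
  exact ⟨(hST z (hR z hzR).1 (hR z hzR).2).1 hz, hzR⟩

theorem IL_cp_sh {E : Set (ℤ × ℤ) → Prop} (a b : ℤ) (h : IL E) : IL (cp (sh a b) E) := by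
  refine ⟨fun S T hST hS => h.1 _ _ (fun z hz => hST hz) hS, ?_⟩
  obtain ⟨N, hN⟩ := h.2
  refine ⟨N + 2 * |a| + 2 * |b|, fun S T hST hS => hN _ _ (fun z h1 h2 => ?_) hS⟩
  have := abs_nonneg a
  have := abs_nonneg b
  have := le_abs_self a
  have := le_abs_self b
  have := neg_abs_le a
  have := neg_abs_le b
  rw [abs_le] at h1 h2
  exact hST (z.1 + 2 * a, z.2 + 2 * b) (by rw [abs_le]; dsimp only; constructor <;> linarith)
    (by rw [abs_le]; dsimp only; constructor <;> linarith)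

theorem IL_cp_sw {E : Set (ℤ × ℤ) → Prop} (h : IL E) : IL (cp sw E) := by
  refine ⟨fun S T hST hS => h.1 _ _ (fun z hz => hST hz) hS, ?_⟩
  obtain ⟨N, hN⟩ := h.2
  exact ⟨N, fun S T hST hS => hN _ _ (fun z h1 h2 => hST (z.2, z.1) h2 h1) hS⟩

theorem cp_sh_sh (a b a' b' : ℤ) (E : Set (ℤ × ℤ) → Prop) :
    cp (sh a b) (cp (sh a' b') E) = cp (sh (a + a') (b + b')) E := by
  funext S
  unfold cp sh
  congr 1
  ext z
  simp only [Set.mem_ofPred_eq]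
  rw [show z.1 + 2 * a' + 2 * a = z.1 + 2 * (a + a') by ring,
    show z.2 + 2 * b' + 2 * b = z.2 + 2 * (b + b') by ring]

theorem cp_sh_sw_sh (a b a' b' : ℤ) (E : Set (ℤ × ℤ) → Prop) :
    cp (sh a b) (cp sw (cp (sh a' b') E)) = cp (sh (a + b') (b + a')) (cp sw E) := by
  funext S
  unfold cp sh sw
  congr 1
  ext z
  simp only [Set.mem_ofPred_eq]
  rw [show z.2 + 2 * b' + 2 * a = z.2 + 2 * (a + b') by ring,
    show z.1 + 2 * a' + 2 * b = z.1 + 2 * (b + a') by ring]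

theorem cp_sw_sw (E : Set (ℤ × ℤ) → Prop) : cp sw (cp sw E) = E := rfl

theorem cp_sh_zero (E : Set (ℤ × ℤ) → Prop) : cp (sh 0 0) E = E := by
  funext S
  unfold cp sh
  congr 1
  ext z
  simp

/-! ### Copies of the crossing events -/

theorem cp_LRp (a b c d p q : ℤ) :
    cp (sh p q) (LRp a b c d) = LRp (a + p) (b + p) (c + q) (d + q) := by
  funext S
  exact propext (LRp_shift S a b c d p q)

theorem cp_sw_LRp (a b c d : ℤ) : cp sw (LRp a b c d) = BTp c d a b := by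
  funext S
  exact propext (LRp_swap S a b c d)

theorem cp_sw_BTp (a b c d : ℤ) : cp sw (BTp a b c d) = LRp c d a b := by
  rw [← cp_sw_LRp, cp_sw_sw]

theorem cp_HT (p q n u v a b : ℤ) :
    cp (sh (b - a) (2 * a)) (HT p q n u v) = HT (p + a) (q + b) n (u + b) (v + b) := by
  funext S
  exact propext (HT_shift S p q n u v a b)

theorem cp_HM (p q n u v a b : ℤ) :
    cp (sh (b - a) (2 * a)) (HM p q n u v) = HM (p + a) (q + b) n (u + b) (v + b) := by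
  funext S
  refine propext ?_
  refine ex_iff (T := fun z => (z.1 + 2 * (b - a), z.2 + 2 * (2 * a)))
    (T' := fun z => (z.1 + 2 * (-(b - a)), z.2 + 2 * (-(2 * a)))) ?_ (adj_shift (b - a) (2 * a))
    (adj_shift (-(b - a)) (-(2 * a))) ?_ ?_ S
  · rintro ⟨x, y⟩; ext <;> dsimp only <;> ring
  · rintro ⟨x, y⟩; rw [mem_hex, mem_hex]; dsimp only; constructor <;> intro h <;> omega
  · rintro ⟨x, y⟩ ⟨x', y'⟩; dsimp only; omega

theorem cp_CT (p q n a b : ℤ) : cp (sh (b - a) (2 * a)) (CT p q n) = CT (p + a) (q + b) n := by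
  funext S
  exact propext (CT_shift S p q n a b)

theorem cp_rx_HT (p q n u v : ℤ) : cp rx (HT p q n u v) = HT p (-q) n (-v) (-u) := by
  funext S
  exact propext (HT_reflx S p q n u v)

theorem cp_ry_HT (p q n u v : ℤ) : cp ry (HT p q n u v) = HM (-p) q n u v := by
  funext S
  exact propext (HT_refly S p q n u v)

theorem cp_sw_CT (n : ℤ) : cp sw (CT 0 0 n) = HT 0 0 n (-n) n := by
  funext S
  exact propext (CT_swap S n)

theorem cp_XX (n h t : ℤ) : cp (sh t 0) (XX 0 0 n h) = XX 0 t n h := by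
  have e : sh t 0 = sh (t - 0) (2 * 0) := by norm_num
  have h1 : ∀ S, cp (sh t 0) (XX 0 0 n h) S =
      (cp (sh t 0) (HT 0 0 n (0 + h) (0 + n)) S ∧ cp (sh t 0) (HT 0 0 n (0 - n) (0 - h)) S ∧
        cp (sh t 0) (HM 0 0 n (0 + h) (0 + n)) S ∧ cp (sh t 0) (HM 0 0 n (0 - n) (0 - h)) S ∧
        cp (sh t 0) (CT 0 0 n) S) := fun S => rfl
  funext S
  rw [h1, e, cp_HT, cp_HT, cp_HM, cp_HM, cp_CT]
  unfold XX
  rw [show (0 : ℤ) + 0 = 0 by ring, show (0 : ℤ) + t = t by ring,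
    show 0 + h + t = t + h by ring, show 0 + n + t = t + n by ring,
    show 0 - n + t = t - n by ring, show 0 - h + t = t - h by ring]

theorem cp_ry_HP (t k : ℤ) : cp ry (HP t k) = HQ t k := by
  funext S
  refine propext ?_
  have key := ex_iff (T := ry) (T' := ry) (R := hex (-t) 0 t) (R' := hex t 0 t)
    (P := fun x y => y = (k, 0) ∧ x.2 = -(8 * t)) (P' := fun x y => y = (k, 0) ∧ x.2 = 8 * t)
    (by rintro ⟨x, y⟩; ext <;> simp only [ry] <;> ring) adj_refly adj_refly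
    (by rintro ⟨x, y⟩; rw [mem_hex, mem_hex]; simp only [ry]; constructor <;> intro h <;> omega)
    (by
      rintro ⟨x, y⟩ ⟨x', y'⟩
      simp only [ry, Prod.mk.injEq]
      constructor <;> intro h <;> omega) S
  constructor
  · rintro ⟨x, hx, h1⟩
    obtain ⟨x', y', h2, rfl, h4⟩ := key.1 ⟨x, (k, 0), hx, rfl, h1⟩
    exact ⟨x', h2, h4⟩
  · rintro ⟨x, hx, h1⟩
    obtain ⟨x', y', h2, rfl, h4⟩ := key.2 ⟨x, (k, 0), hx, rfl, h1⟩
    exact ⟨x', h2, h4⟩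

theorem InBox_LRp (h : ℤ) : InBox (2 * h) (LRp 0 h 0 h) :=
  InBox.ex (by
    rintro ⟨x, y⟩ ⟨h1, h2, h3, h4⟩
    dsimp only at h1 h2 h3 h4 ⊢
    constructor <;> rw [abs_le] <;> constructor <;> linarith)
    (fun x y => x.1 = 2 * 0 ∧ y.1 = 2 * h)

theorem hex_box {n : ℤ} : ∀ z ∈ hex 0 0 n, |z.1| ≤ 4 * n ∧ |z.2| ≤ 4 * n := by
  rintro ⟨x, y⟩ h
  rw [mem_hex] at h
  dsimp only at h ⊢
  constructor <;> rw [abs_le] <;> constructor <;> omega

theorem InBox_HT (n u v : ℤ) : InBox (4 * n) (HT 0 0 n u v) :=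
  InBox.ex hex_box (fun x y => x.2 = 4 * (0 - n) ∧ y.2 = 4 * (0 + n) ∧
    4 * u ≤ 2 * y.1 + y.2 ∧ 2 * y.1 + y.2 ≤ 4 * v)

theorem InBox_HM (n u v : ℤ) : InBox (4 * n) (HM 0 0 n u v) :=
  InBox.ex hex_box (fun x y => x.2 = 4 * (0 + n) ∧ y.2 = 4 * (0 - n) ∧
    4 * u ≤ 2 * y.1 + y.2 ∧ 2 * y.1 + y.2 ≤ 4 * v)

theorem InBox_CT (n : ℤ) : InBox (4 * n) (CT 0 0 n) :=
  InBox.ex hex_box (fun x y => x.1 = 2 * (0 - 0 - 2 * n) ∧ y.1 = 2 * (0 - 0 + 2 * n))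

theorem InBox_XX (n h : ℤ) : InBox (4 * n) (XX 0 0 n h) :=
  (InBox_HT _ _ _).and ((InBox_HT _ _ _).and ((InBox_HM _ _ _).and
    ((InBox_HM _ _ _).and (InBox_CT _))))

theorem IL_HP (t k : ℤ) : IL (HP t k) := by
  have h := IL_ex _ (hex_bdd (-t) 0 t) (fun x y => y = (k, 0) ∧ x.2 = -(8 * t))
  have e : HP t k = fun S => ∃ x y, Conn (S ∩ hex (-t) 0 t) x y ∧ y = (k, 0) ∧ x.2 = -(8 * t) := by
    funext S
    refine propext ⟨fun ⟨x, hx, h1⟩ => ⟨x, _, hx, rfl, h1⟩, ?_⟩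
    rintro ⟨x, y, hx, rfl, h1⟩
    exact ⟨x, hx, h1⟩
  rw [e]
  exact h

theorem InBox_HP (t k : ℤ) : InBox (8 * t) (HP t k) := by
  rintro S T hST ⟨x, h, hp⟩
  refine ⟨x, h.mono ?_, hp⟩
  rintro ⟨z1, z2⟩ ⟨hz, hzR⟩
  have h1 := hzR
  rw [mem_hex] at h1
  dsimp only at h1
  exact ⟨(hST (z1, z2) (by dsimp only; rw [abs_le]; constructor <;> omega)
    (by dsimp only; rw [abs_le]; constructor <;> omega)).1 hz, hzR⟩

theorem InBox_HQ (t k : ℤ) : InBox (8 * t) (HQ t k) := by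
  rintro S T hST ⟨x, h, hp⟩
  refine ⟨x, h.mono ?_, hp⟩
  rintro ⟨z1, z2⟩ ⟨hz, hzR⟩
  have h1 := hzR
  rw [mem_hex] at h1
  dsimp only at h1
  exact ⟨(hST (z1, z2) (by dsimp only; rw [abs_le]; constructor <;> omega)
    (by dsimp only; rw [abs_le]; constructor <;> omega)).1 hz, hzR⟩

theorem IL_HQ (t k : ℤ) : IL (HQ t k) := by
  have h := IL_ex _ (hex_bdd t 0 t) (fun x y => y = (k, 0) ∧ x.2 = 8 * t)
  have e : HQ t k = fun S => ∃ x y, Conn (S ∩ hex t 0 t) x y ∧ y = (k, 0) ∧ x.2 = 8 * t := by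
    funext S
    refine propext ⟨fun ⟨x, hx, h1⟩ => ⟨x, _, hx, rfl, h1⟩, ?_⟩
    rintro ⟨x, y, hx, rfl, h1⟩
    exact ⟨x, hx, h1⟩
  rw [e]
  exact h

/-! ### Lower bounds for all copies -/

namespace Law

variable (P : Law)

/-- All the copies of `E` by shifts of size at most `r`, and the copies of its reflection, have
probability at least `x`. -/
def LB (r : ℤ) (E : Set (ℤ × ℤ) → Prop) (x : ℝ) : Prop :=
  ∀ a b : ℤ, |a| ≤ r → |b| ≤ r → x ≤ P.p (cp (sh a b) E) ∧ x ≤ P.p (cp (sh a b) (cp sw E))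

variable {P}

theorem LB.le {r : ℤ} {E : Set (ℤ × ℤ) → Prop} {x y : ℝ} (h : P.LB r E x) (hy : y ≤ x) :
    P.LB r E y := fun a b ha hb => ⟨hy.trans (h a b ha hb).1, hy.trans (h a b ha hb).2⟩

theorem LB.rad {r s : ℤ} {E : Set (ℤ × ℤ) → Prop} {x : ℝ} (h : P.LB r E x) (hs : s ≤ r) :
    P.LB s E x := fun a b ha hb => h a b (ha.trans hs) (hb.trans hs)

theorem LB.mono {r : ℤ} {E F : Set (ℤ × ℤ) → Prop} {x : ℝ} (h : P.LB r E x)
    (hEF : ∀ S, E S → F S) : P.LB r F x := fun a b ha hb =>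
  ⟨(h a b ha hb).1.trans (P.mono _ _ fun _ hS => hEF _ hS),
    (h a b ha hb).2.trans (P.mono _ _ fun _ hS => hEF _ hS)⟩

theorem LB.and {r : ℤ} {E F : Set (ℤ × ℤ) → Prop} {x y : ℝ} (hE : P.LB r E x) (hF : P.LB r F y)
    (iE : IL E) (iF : IL F) (hx : 0 ≤ x) (hy : 0 ≤ y) :
    P.LB r (fun S => E S ∧ F S) (x * y) := fun a b ha hb => by
  have h1 := hE a b ha hb
  have h2 := hF a b ha hb
  constructor
  · exact (mul_le_mul h1.1 h2.1 hy (hx.trans h1.1)).trans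
      (P.fkg _ _ (IL_cp_sh a b iE) (IL_cp_sh a b iF))
  · exact (mul_le_mul h1.2 h2.2 hy (hx.trans h1.2)).trans
      (P.fkg _ _ (IL_cp_sh a b (IL_cp_sw iE)) (IL_cp_sh a b (IL_cp_sw iF)))

theorem LB.shift {r : ℤ} {E : Set (ℤ × ℤ) → Prop} {x : ℝ} (h : P.LB r E x) (a b s : ℤ)
    (ha : |a| ≤ s) (hb : |b| ≤ s) : P.LB (r - s) (cp (sh a b) E) x := fun a' b' ha' hb' => by
  rw [cp_sh_sh, cp_sh_sw_sh]
  have h1 := abs_add_le a' a
  have h2 := abs_add_le b' b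
  have h3 := abs_add_le a' b
  have h4 := abs_add_le b' a
  exact ⟨(h _ _ (by linarith) (by linarith)).1, (h _ _ (by linarith) (by linarith)).2⟩

theorem LB.swap {r : ℤ} {E : Set (ℤ × ℤ) → Prop} {x : ℝ} (h : P.LB r E x) :
    P.LB r (cp sw E) x := fun a b ha hb => by
  rw [cp_sw_sw]
  exact ⟨(h a b ha hb).2, (h a b ha hb).1⟩

/-- Chains of crossings. -/
theorem LB.chain (G : Geo) {r k h w : ℤ} {x s y : ℝ} (hh : 0 ≤ h) (hk : 0 ≤ k) (hw : h ≤ w)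
    (hx : 0 ≤ x) (hs : 0 ≤ s) (hy : 0 ≤ y) (h1 : P.LB r (LRp 0 (h + k) 0 h) x)
    (h2 : P.LB r (LRp 0 h 0 h) s) (h3 : P.LB r (LRp 0 w 0 h) y) :
    P.LB (r - k) (LRp 0 (w + k) 0 h) (x * s * y) := by
  have e2 : cp (sh k 0) (cp sw (LRp 0 h 0 h)) = BTp k (h + k) 0 h := by
    have h4 := cp_sw_LRp (0 + 0) (h + 0) (0 + k) (h + k)
    rw [← cp_LRp] at h4
    have h5 := cp_sh_sw_sh 0 0 0 k (LRp 0 h 0 h)
    rw [cp_sh_zero, h4] at h5
    rw [show (0 : ℤ) + k = k by ring, show (0 : ℤ) + 0 = 0 by ring, show h + 0 = h by ring] at h5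
    exact h5.symm
  have e3 : cp (sh k 0) (LRp 0 w 0 h) = LRp k (w + k) 0 h := by
    rw [cp_LRp, show (0 : ℤ) + k = k by ring, show (0 : ℤ) + 0 = 0 by ring,
      show h + 0 = h by ring]
  have g1 : P.LB (r - k) (LRp 0 (h + k) 0 h) x := h1.rad (by omega)
  have g2 : P.LB (r - k) (BTp k (h + k) 0 h) s := by
    rw [← e2]
    exact h2.swap.shift k 0 k (by rw [abs_of_nonneg hk]) (by rw [abs_zero]; exact hk)
  have g3 : P.LB (r - k) (LRp k (w + k) 0 h) y := by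
    rw [← e3]
    exact h3.shift k 0 k (by rw [abs_of_nonneg hk]) (by rw [abs_zero]; exact hk)
  have g4 := (g1.and g2 (IL_LRp _ _ _ _) (IL_BTp _ _ _ _) hx hs).and g3
    ((IL_LRp _ _ _ _).and (IL_BTp _ _ _ _)) (IL_LRp _ _ _ _) (mul_nonneg hx hs) hy
  exact g4.mono fun S hS => G.chain 0 k (h + k) (w + k) 0 h S hk (by omega) (by omega) hh
    hS.1.1 hS.1.2 hS.2

/-- Iterated chains. -/
theorem LB.iter (G : Geo) {r k h : ℤ} {x s : ℝ} (hh : 0 ≤ h) (hk : 0 ≤ k)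
    (hx : 0 ≤ x) (hs : 0 ≤ s) (h1 : P.LB r (LRp 0 (h + k) 0 h) x)
    (h2 : P.LB r (LRp 0 h 0 h) s) (j : ℕ) :
    P.LB (r - j * k) (LRp 0 (h + (j + 1 : ℕ) * k) 0 h) (x * (s * x) ^ j) := by
  induction j with
  | zero => simpa using h1
  | succ j ih =>
    have e : (r - ((j + 1 : ℕ) : ℤ) * k) = r - j * k - k := by push_cast; ring
    have e2 : h + ((j + 1 + 1 : ℕ) : ℤ) * k = h + ((j + 1 : ℕ) : ℤ) * k + k := by push_cast; ring
    have hjk : 0 ≤ (j : ℤ) * k := by positivity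
    have hjk' : 0 ≤ ((j + 1 : ℕ) : ℤ) * k := by positivity
    rw [e, e2]
    have := LB.chain G (r := r - j * k) (k := k) (h := h) (w := h + ((j + 1 : ℕ) : ℤ) * k) hh hk
      (by omega) hx hs (by positivity) (h1.rad (by omega)) (h2.rad (by omega)) ih
    refine this.le (le_of_eq ?_)
    ring

/-- The annulus event. -/
theorem LB.ann {t : ℤ} {y : ℝ} (ht : 0 ≤ t) (hy : 0 ≤ y)
    (h : P.LB (2 * t) (LRp 0 (4 * t) 0 t) y) : y ^ 4 ≤ P.p (Ann 0 0 t) := by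
  have a2 : |(-(2 * t))| ≤ 2 * t := by rw [abs_neg, abs_of_nonneg (by omega)]
  have a1 : |t| ≤ 2 * t := by rw [abs_of_nonneg ht]; omega
  have e1 : y ≤ P.p (LRp (0 - 2 * t) (0 + 2 * t) (0 + t) (0 + 2 * t)) := by
    have := (h (-(2 * t)) t a2 a1).1
    rw [cp_LRp] at this
    convert this using 3 <;> ring
  have e2 : y ≤ P.p (LRp (0 - 2 * t) (0 + 2 * t) (0 - 2 * t) (0 - t)) := by
    have := (h (-(2 * t)) (-(2 * t)) a2 a2).1
    rw [cp_LRp] at this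
    convert this using 3 <;> ring
  have eB : ∀ a b : ℤ, cp (sh a b) (cp sw (LRp 0 (4 * t) 0 t)) = BTp (0 + a) (t + a) (0 + b)
      (4 * t + b) := fun a b => by
    have h5 := cp_sh_sw_sh 0 0 b a (LRp 0 (4 * t) 0 t)
    rw [cp_sh_zero, cp_LRp, cp_sw_LRp] at h5
    rw [show (0 : ℤ) + a = a by ring, show (0 : ℤ) + b = b by ring] at h5 ⊢
    exact h5.symm
  have e3 : y ≤ P.p (BTp (0 - 2 * t) (0 - t) (0 - 2 * t) (0 + 2 * t)) := by
    have := (h (-(2 * t)) (-(2 * t)) a2 a2).2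
    rw [eB] at this
    convert this using 3 <;> ring
  have e4 : y ≤ P.p (BTp (0 + t) (0 + 2 * t) (0 - 2 * t) (0 + 2 * t)) := by
    have := (h t (-(2 * t)) a1 a2).2
    rw [eB] at this
    convert this using 3 <;> ring
  have f34 := (mul_le_mul e3 e4 hy (hy.trans e3)).trans (P.fkg _ _ (IL_BTp _ _ _ _) (IL_BTp _ _ _ _))
  have f234 := (mul_le_mul e2 f34 (mul_nonneg hy hy) (hy.trans e2)).trans
    (P.fkg _ _ (IL_LRp _ _ _ _) ((IL_BTp _ _ _ _).and (IL_BTp _ _ _ _)))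
  have f := (mul_le_mul e1 f234 (by positivity) (hy.trans e1)).trans
    (P.fkg _ _ (IL_LRp _ _ _ _) ((IL_LRp _ _ _ _).and ((IL_BTp _ _ _ _).and (IL_BTp _ _ _ _))))
  calc y ^ 4 = y * (y * (y * y)) := by ring
    _ ≤ _ := f
    _ = P.p (Ann 0 0 t) := rfl

end Law

end Vale.Agent.P153.R2.KPOS.H536
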