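import Vale.Agent.P153.R2.KPOS.H536.Stmt

/-!
# P153, KPOS: one step of the chain
-/

namespace Vale.Agent.P153.R2.KPOS.H536

open Vale.Agent.P153 Vale.Agent.P153.Topo Vale.Agent.P153.F.RSW

/-- The law `P` is good at the scale `n`. -/
structure At (c0 δ : ℝ) (P : Law) (n : ℕ) : Prop where
  c0_pos : 0 < c0
  δ_nonneg : 0 ≤ δ
  δ_le : 24 * δ ≤ c0
  reflx : ∀ E, IL E → P.p (cp rx E) = P.p E
  refly : ∀ E, IL E → P.p (cp ry E) = P.p E
  swap : ∀ E, IL E → P.p (cp sw E) = P.p E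
  shift : ∀ a b : ℤ, |a| ≤ 40 * n → |b| ≤ 40 * n → ∀ E, IL E →
    InBox (12 * n) E → P.p E - δ ≤ P.p (cp (sh a b) E)
  sq : ∀ h : ℤ, n ≤ h → h ≤ 6 * n → c0 ≤ P.p (LRp 0 h 0 h)
  hx : c0 ≤ P.p (HT 0 0 n (-n) n)
  pos : 0 < n
  even : 2 * (n / 2) = n

theorem Law.union (P : Law) (n a b c : ℤ) :
    P.p (HT 0 0 n a c) ≤ P.p (HT 0 0 n a b) + P.p (HT 0 0 n b c) := by
  refine le_trans (P.mono _ _ ?_) (P.or_le _ _)
  rintro S ⟨x, y, h, h1, h2, h3, h4⟩
  rcases le_total (2 * y.1 + y.2) (4 * b) with h5 | h5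
  · exact Or.inl ⟨x, y, h, h1, h2, h3, h5⟩
  · exact Or.inr ⟨x, y, h, h1, h2, h5, h4⟩

theorem Law.HT_mono (P : Law) {n a a' b b' : ℤ} (ha : a' ≤ a) (hb : b ≤ b') :
    P.p (HT 0 0 n a b) ≤ P.p (HT 0 0 n a' b') :=
  P.mono _ _ (fun _ ⟨x, y, h, h1, h2, h3, h4⟩ => ⟨x, y, h, h1, h2, by omega, by omega⟩)

open Classical in
/-- The landing threshold of the law `P` at the scale `n`. -/
noncomputable def al (c0 : ℝ) (P : Law) (n : ℕ) : ℕ :=
  Nat.findGreatest (fun a : ℕ => c0 / 4 ≤ P.p (HT 0 0 n a n)) (n / 2)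

/-- The lower bound for copies of basic events. -/
noncomputable def ee (c0 : ℝ) : ℝ := c0 / 36

theorem IL_HT' (n u v : ℤ) : IL (HT 0 0 n u v) := IL_HT 0 0 n u v

namespace At

variable {c0 δ : ℝ} {P : Law} {n : ℕ}

theorem ee_pos (h : At c0 δ P n) : 0 < ee c0 := by have := h.c0_pos; unfold ee; linarith

theorem c0_le (h : At c0 δ P n) : c0 ≤ 1 := h.hx.trans (P.le_one _)

theorem ee_le (h : At c0 δ P n) : ee c0 ≤ 1 := by have := h.c0_le; have := h.c0_pos; unfold ee; linarith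

theorem lb (h : At c0 δ P n) {E : Set (ℤ × ℤ) → Prop} (hE : IL E) (hb : InBox (12 * n) E) {y : ℝ}
    (hy : y + δ ≤ P.p E) : P.LB (40 * n) E y := fun a b ha hb' => by
  constructor
  · have := h.shift a b ha hb' E hE hb
    linarith
  · have := h.shift a b ha hb' (cp sw E) (IL_cp_sw hE) hb.sw
    rw [h.swap E hE] at this
    linarith

theorem p_neg (h : At c0 δ P n) (a b : ℤ) : P.p (HT 0 0 n (-b) (-a)) = P.p (HT 0 0 n a b) := by
  rw [← h.reflx _ (IL_HT 0 0 n a b), cp_rx_HT, neg_zero]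

theorem p_HM (h : At c0 δ P n) (a b : ℤ) : P.p (HM 0 0 n a b) = P.p (HT 0 0 n a b) := by
  rw [← h.refly _ (IL_HT 0 0 n a b), cp_ry_HT, neg_zero]

theorem half (h : At c0 δ P n) : c0 / 2 ≤ P.p (HT 0 0 n 0 n) := by
  have h1 := P.union n (-n) 0 n
  have h2 := h.p_neg 0 n
  rw [neg_zero] at h2
  have := h.hx
  linarith

theorem al_le : al c0 P n ≤ n / 2 := Nat.findGreatest_le _

theorem al_ge (h : At c0 δ P n) : c0 / 4 ≤ P.p (HT 0 0 n (al c0 P n) n) := by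
  classical
  exact Nat.findGreatest_spec (P := fun a : ℕ => c0 / 4 ≤ P.p (HT 0 0 n a n)) (m := 0)
    (Nat.zero_le _) (by
      have := h.half
      have := h.c0_pos
      simp only [Nat.cast_zero]
      linarith)

theorem al_lt {a : ℕ} (ha : al c0 P n < a) (ha2 : a ≤ n / 2) :
    P.p (HT 0 0 n a n) < c0 / 4 := by
  classical
  exact not_le.1 (Nat.findGreatest_is_greatest
    (P := fun a : ℕ => c0 / 4 ≤ P.p (HT 0 0 n a n)) ha ha2)

/-- The five events of the cross at the centre. -/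
theorem five (h : At c0 δ P n) {a : ℤ} (ha : c0 / 4 ≤ P.p (HT 0 0 n a n)) :
    ee c0 + δ ≤ P.p (HT 0 0 n (0 + a) (0 + n)) ∧ ee c0 + δ ≤ P.p (HT 0 0 n (0 - n) (0 - a)) ∧
    ee c0 + δ ≤ P.p (HM 0 0 n (0 + a) (0 + n)) ∧ ee c0 + δ ≤ P.p (HM 0 0 n (0 - n) (0 - a)) ∧
    ee c0 + δ ≤ P.p (CT 0 0 n) := by
  have h1 := h.δ_le
  have h2 := h.c0_pos
  have h0 := h.δ_nonneg
  have h3 : ee c0 + δ ≤ c0 / 4 := by unfold ee; linarith
  have h4 : ee c0 + δ ≤ c0 := by unfold ee; linarith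
  have e1 : (0 : ℤ) + a = a := by ring
  have e2 : (0 : ℤ) + n = n := by ring
  have e3 : (0 : ℤ) - n = -n := by ring
  have e4 : (0 : ℤ) - a = -a := by ring
  rw [e1, e2, e3, e4, h.p_HM, h.p_HM, h.p_neg]
  refine ⟨h3.trans ha, h3.trans ha, h3.trans ha, h3.trans ha, h4.trans ?_⟩
  rw [← h.swap _ (IL_CT 0 0 n), cp_sw_CT]
  exact h.hx

/-- FKG for the five events. -/
theorem XX_fkg (P' : Law) {m a : ℤ} {e : ℝ} (he : 0 ≤ e)
    (h1 : e ≤ P'.p (HT 0 0 m (0 + a) (0 + m))) (h2 : e ≤ P'.p (HT 0 0 m (0 - m) (0 - a)))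
    (h3 : e ≤ P'.p (HM 0 0 m (0 + a) (0 + m))) (h4 : e ≤ P'.p (HM 0 0 m (0 - m) (0 - a)))
    (h5 : e ≤ P'.p (CT 0 0 m)) : e ^ 5 ≤ P'.p (XX 0 0 m a) := by
  have k4 := (mul_le_mul h4 h5 he (he.trans h4)).trans
    (P'.fkg _ _ (IL_HM 0 0 m (0 - m) (0 - a)) (IL_CT 0 0 m))
  have i4 := (IL_HM 0 0 m (0 - m) (0 - a)).and (IL_CT 0 0 m)
  have k3 := (mul_le_mul h3 k4 (by positivity) (he.trans h3)).trans
    (P'.fkg _ _ (IL_HM 0 0 m (0 + a) (0 + m)) i4)
  have i3 := (IL_HM 0 0 m (0 + a) (0 + m)).and i4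
  have k2 := (mul_le_mul h2 k3 (by positivity) (he.trans h2)).trans
    (P'.fkg _ _ (IL_HT 0 0 m (0 - m) (0 - a)) i3)
  have i2 := (IL_HT 0 0 m (0 - m) (0 - a)).and i3
  have k1 := (mul_le_mul h1 k2 (by positivity) (he.trans h1)).trans
    (P'.fkg _ _ (IL_HT 0 0 m (0 + a) (0 + m)) i2)
  calc e ^ 5 = e * (e * (e * (e * e))) := by ring
    _ ≤ _ := k1
    _ = P'.p (XX 0 0 m a) := rfl

theorem LB_XX (h : At c0 δ P n) {a : ℤ} (ha : c0 / 4 ≤ P.p (HT 0 0 n a n)) :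
    P.LB (40 * n) (XX 0 0 n a) (ee c0 ^ 5) := by
  obtain ⟨h1, h2, h3, h4, h5⟩ := h.five ha
  have he := h.ee_pos.le
  have b4 : InBox (12 * n) = InBox (12 * n) := rfl
  have i1 := IL_HT 0 0 n (0 + a) (0 + n)
  have i2 := IL_HT 0 0 n (0 - n) (0 - a)
  have i3 := IL_HM 0 0 n (0 + a) (0 + n)
  have i4 := IL_HM 0 0 n (0 - n) (0 - a)
  have i5 := IL_CT 0 0 n
  have l1 := h.lb i1 ((InBox_HT _ _ _).mono (by omega)) h1
  have l2 := h.lb i2 ((InBox_HT _ _ _).mono (by omega)) h2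
  have l3 := h.lb i3 ((InBox_HM _ _ _).mono (by omega)) h3
  have l4 := h.lb i4 ((InBox_HM _ _ _).mono (by omega)) h4
  have l5 := h.lb i5 ((InBox_CT _).mono (by omega)) h5
  have := l1.and (l2.and (l3.and (l4.and l5 i4 i5 he he) i3 (i4.and i5) he (by positivity)) i2
    (i3.and (i4.and i5)) he (by positivity)) i1 (i2.and (i3.and (i4.and i5))) he (by positivity)
  exact (this.le (le_of_eq (by ring))).mono fun S hS => hS

/-- Long crossings give the annulus event. -/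
theorem long (h : At c0 δ P n) {w : ℤ} (hw : 4 * n ≤ w) (hw2 : w ≤ 6 * n) {β : ℝ} (hβ : 0 ≤ β)
    (hl : P.LB (31 * n) (LRp 0 (w + n) 0 w) β) :
    (β * (ee c0 * β) ^ 19) ^ 4 ≤ P.p (Ann 0 0 (6 * n)) := by
  have he := h.ee_pos.le
  have h1 := h.δ_le
  have h2 := h.c0_pos
  have h0 := h.δ_nonneg
  have hn : (0 : ℤ) ≤ n := Int.natCast_nonneg n
  have hsq : P.LB (40 * n) (LRp 0 w 0 w) (ee c0) :=
    h.lb (IL_LRp _ _ _ _) ((InBox_LRp w).mono (by omega)) (by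
      have := h.sq w (by omega) hw2
      unfold ee; linarith)
  have h3 := Law.LB.iter geo (r := 31 * n) (k := n) (h := w) (by omega) hn hβ he hl
    (hsq.rad (by omega)) 19
  have h4 : P.LB (2 * (6 * n)) (LRp 0 (4 * (6 * n)) 0 (6 * n)) (β * (ee c0 * β) ^ 19) := by
    refine (h3.rad (by push_cast; omega)).mono fun S hS =>
      geo.mono 0 0 _ _ 0 0 _ _ S le_rfl (by omega) ?_ le_rfl hw2 hS
    push_cast
    omega
  exact h4.ann (by omega) (by positivity)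

/-- First way to get long crossings: the threshold is `n / 2`. -/
theorem base1 (h : At c0 δ P n) (ha : al c0 P n = n / 2) :
    P.LB (31 * n) (LRp 0 (4 * n + n) 0 (4 * n)) (ee c0 ^ 10) := by
  have he := h.ee_pos.le
  obtain ⟨k, hk⟩ : ∃ k : ℕ, k = n / 2 := ⟨_, rfl⟩
  have hk2 : (2 : ℤ) * k = n := by have := h.even; omega
  have hpos := h.pos
  have h1 := h.al_ge
  rw [ha, ← hk] at h1
  have h2 := h.LB_XX h1
  have h3 := h2.shift (-(2 * k)) 0 n (by rw [abs_neg, abs_of_nonneg (by omega)]; omega)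
    (by rw [abs_zero]; omega)
  rw [cp_XX] at h3
  have h4 := (h2.rad (s := 40 * n - n) (by omega)).and h3 (IL_XX _ _ _ _) (IL_XX _ _ _ _)
    (by positivity) (by positivity)
  have h5 : P.LB (40 * n - n) (LRp (-(2 * k) - 2 * n) (2 * n) (-(2 * n)) (2 * n))
      (ee c0 ^ 5 * ee c0 ^ 5) := h4.mono fun S hS =>
    geo.zig n k S (by omega) (by omega) (by omega) hS.1 hS.2
  have h6 := h5.shift (3 * n) (2 * n) (3 * n) (by rw [abs_of_nonneg (by omega)])
    (by rw [abs_of_nonneg (by omega)]; omega)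
  rw [cp_LRp] at h6
  have e1 : -(2 * (k : ℤ)) - 2 * n + 3 * n = 0 := by omega
  have e2 : 2 * (n : ℤ) + 3 * n = 4 * n + n := by ring
  have e3 : -(2 * (n : ℤ)) + 2 * n = 0 := by ring
  have e4 : 2 * (n : ℤ) + 2 * n = 4 * n := by ring
  rw [e1, e2, e3, e4] at h6
  exact (h6.rad (by omega)).le (le_of_eq (by ring))

/-- Second way to get long crossings: landing at a fixed point. -/
theorem base2 (h : At c0 δ P n) (hn : 2 ≤ n) (ha : al c0 P n = 0) :
    P.LB (31 * n) (LRp 0 (6 * n + n) 0 (6 * n)) (ee c0 ^ 2) := by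
  have he := h.ee_pos.le
  have hδ := h.δ_le
  have hc := h.c0_pos
  have h0 := h.δ_nonneg
  have h1 : P.p (HT 0 0 n ((1 : ℕ) : ℤ) n) < c0 / 4 := al_lt (by omega) (by omega)
  have h2 := P.union n 0 1 n
  have h3 := h.half
  have h4 : c0 / 4 ≤ P.p (HT 0 0 n 0 1) := by
    simp only [Nat.cast_one] at h1
    linarith
  have h5 := h.shift (0 - (-n)) (2 * (-n)) (by rw [abs_le]; omega) (by rw [abs_le]; omega) _
    (IL_HT 0 0 n 0 1) ((InBox_HT _ _ _).mono (by omega))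
  rw [cp_HT] at h5
  have h6 : P.p (HT (0 + -n) (0 + 0) n (0 + 0) (1 + 0)) ≤
      P.p (HP n 0) + (P.p (HP n 1) + P.p (HP n 2)) := by
    refine (P.mono _ (fun S => HP n 0 S ∨ (HP n 1 S ∨ HP n 2 S)) fun S hS => ?_).trans
      ((P.or_le _ _).trans (by
        have := P.or_le (HP n 1) (HP n 2)
        linarith))
    have e : HT (0 + -(n : ℤ)) (0 + 0) n (0 + 0) (1 + 0) = HT (-n) 0 n 0 1 := by
      congr 1 <;> ring
    rw [e] at hS
    exact HT_cases hS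
  have h7 : ∃ k : ℤ, ee c0 + δ ≤ P.p (HP n k) := by
    by_contra hcon
    push Not at hcon
    have a0 := hcon 0
    have a1 := hcon 1
    have a2 := hcon 2
    unfold ee at a0 a1 a2
    linarith
  obtain ⟨k, hk⟩ := h7
  have hk' : ee c0 + δ ≤ P.p (HQ n k) := by
    rw [← cp_ry_HP, h.refly _ (IL_HP n k)]
    exact hk
  have l1 := h.lb (IL_HP n k) ((InBox_HP _ _).mono (by omega)) hk
  have l2 := h.lb (IL_HQ n k) ((InBox_HQ _ _).mono (by omega)) hk'
  have l3 := (l1.and l2 (IL_HP n k) (IL_HQ n k) he he).mono fun S hS =>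
    HP_join (by omega) hS.1 hS.2
  have l4 := l3.swap
  rw [cp_sw_BTp] at l4
  have l5 := l4.shift (4 * n) (3 * n) (4 * n) (by rw [abs_of_nonneg (by omega)])
    (by rw [abs_of_nonneg (by omega)]; omega)
  rw [cp_LRp] at l5
  refine ((l5.rad (s := 31 * n) (by omega)).mono fun S hS => ?_).le (le_of_eq (by ring))
  have e1 : -(4 * (n : ℤ)) + 4 * n = 0 := by ring
  have e2 : 4 * (n : ℤ) + 4 * n = 8 * n := by ring
  have e3 : -(3 * (n : ℤ)) + 3 * n = 0 := by ring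
  have e4 : 3 * (n : ℤ) + 3 * n = 6 * n := by ring
  rw [e1, e2, e3, e4] at hS
  exact geo.mono 0 0 (8 * n) (6 * n + n) 0 0 (6 * n) (6 * n) S le_rfl (by omega) (by omega) le_rfl
    le_rfl hS

end At

/-- FKG for finitely many copies. -/
theorem Law.LB.all {P : Law} {r : ℤ} {x : ℝ} (hx : 0 ≤ x) (E : ℕ → Set (ℤ × ℤ) → Prop) (K : ℕ)
    (h : ∀ k, k ≤ K → P.LB r (E k) x) (hE : ∀ k, IL (E k)) :
    P.LB r (fun S => ∀ k, k ≤ K → E k S) (x ^ (K + 1)) ∧ IL (fun S => ∀ k, k ≤ K → E k S) := by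
  induction K with
  | zero =>
    have e : (fun S => ∀ k, k ≤ 0 → E k S) = E 0 := by
      funext S
      refine propext ⟨fun h => h 0 le_rfl, fun h k hk => ?_⟩
      have : k = 0 := by omega
      rw [this]; exact h
    rw [e]
    exact ⟨by simpa using h 0 le_rfl, hE 0⟩
  | succ K ih =>
    obtain ⟨h1, h2⟩ := ih fun k hk => h k (by omega)
    have e : (fun S => ∀ k, k ≤ K + 1 → E k S) =
        fun S => (∀ k, k ≤ K → E k S) ∧ E (K + 1) S := by
      funext S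
      refine propext ⟨fun h => ⟨fun k hk => h k (by omega), h _ le_rfl⟩, fun h k hk => ?_⟩
      rcases Nat.lt_or_ge k (K + 1) with h3 | h3
      · exact h.1 k (by omega)
      · have : k = K + 1 := by omega
        rw [this]; exact h.2
    rw [e]
    refine ⟨(h1.and (h (K + 1) le_rfl) h2 (hE _) (by positivity) hx).le (le_of_eq ?_),
      h2.and (hE _)⟩
    ring

namespace At

variable {c0 δ : ℝ} {P : Law} {n : ℕ}

/-- Third way to get long crossings: landing in the window of a barrier of crosses of a smaller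
scale. -/
theorem base3 (h : At c0 δ P n) {m a K : ℕ} (hm : 0 < m) (hmn : 2 * m ≤ n) {x : ℝ} (hx : 0 ≤ x)
    (hX : P.LB (40 * n) (XX 0 0 m a) x) (hK : 2 * (a * (K + 1)) ≤ n)
    (hH : c0 / 4 ≤ P.p (HT 0 0 n 0 (2 * (a * (K + 1) : ℕ)))) :
    ∃ w : ℤ, 4 * n ≤ w ∧ w ≤ 6 * n ∧
      P.LB (31 * n) (LRp 0 (w + n) 0 w) (ee c0 ^ 2 * x ^ (K + 1)) := by
  have he := h.ee_pos.le
  have hδ := h.δ_le
  have hc := h.c0_pos
  have h0 := h.δ_nonneg
  obtain ⟨b, hb⟩ : ∃ b : ℕ, b = a * (K + 1) := ⟨_, rfl⟩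
  rw [← hb] at hH hK
  have hbz : (b : ℤ) = a * K + a := by rw [hb]; push_cast; ring
  have haK : (0 : ℤ) ≤ a * K := by positivity
  have hee : ee c0 + δ ≤ c0 / 4 := by unfold ee; linarith
  -- the two landing events
  have l1 := h.lb (IL_HT 0 0 n 0 (2 * b)) ((InBox_HT _ _ _).mono (by omega)) (hee.trans hH)
  have l2 := h.lb (IL_HM 0 0 n 0 (2 * b)) ((InBox_HM _ _ _).mono (by omega))
    (by rw [h.p_HM]; exact hee.trans hH)
  have l1' := l1.shift (-b - (m - n)) (2 * (m - n)) (2 * n) (by rw [abs_le]; omega)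
    (by rw [abs_le]; omega)
  rw [cp_HT] at l1'
  have l2' := l2.shift (-b - (n - m)) (2 * (n - m)) (2 * n) (by rw [abs_le]; omega)
    (by rw [abs_le]; omega)
  rw [cp_HM] at l2'
  -- the crosses
  have l3 : ∀ k : ℕ, k ≤ K → P.LB (40 * n - 2 * n)
      (XX 0 ((-b + a : ℤ) + 2 * a * k) m a) x := by
    intro k hk
    have hk' : (a : ℤ) * k ≤ a * K := by
      exact_mod_cast Nat.mul_le_mul_left a hk
    have hk'' : (0 : ℤ) ≤ a * k := by positivity
    have e : 2 * (a : ℤ) * k = 2 * (a * k) := by ring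
    have h3 := hX.shift ((-b + a : ℤ) + 2 * a * k) 0 (2 * n) (by rw [abs_le, e]; omega)
      (by rw [abs_zero]; omega)
    rw [cp_XX] at h3
    exact h3
  obtain ⟨l4, i4⟩ := Law.LB.all hx (fun k => XX 0 ((-b + a : ℤ) + 2 * a * k) m a) K l3
    (fun k => IL_XX _ _ _ _)
  have l5 := (l1'.and l2' (IL_HT _ _ _ _ _) (IL_HM _ _ _ _ _) he he).and l4
    ((IL_HT _ _ _ _ _).and (IL_HM _ _ _ _ _)) i4 (by positivity) (by positivity)
  have l6 : P.LB (40 * n - 2 * n) (BTp (-b - (3 * n - m)) (-b + (3 * n - m)) (-(4 * n - 2 * m))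
      (4 * n - 2 * m)) (ee c0 * ee c0 * x ^ (K + 1)) := by
    refine l5.mono fun S hS => ?_
    obtain ⟨⟨h1, h2⟩, h3⟩ := hS
    have hbar := bar_XX (m := m) (q := -b + a) (a := a) (A := 2 * ((-b + a) - 2 * m))
      (B := 2 * ((-b + a) + 2 * a * K + 2 * m)) (by positivity) K le_rfl le_rfl h3
    have e1 : (-b + a : ℤ) - a = -b := by ring
    have e2 : (-b + a : ℤ) + 2 * a * K + a = b := by rw [hbz]; ring
    rw [e1, e2] at hbar
    have e3 : 2 * (a : ℤ) * K = 2 * (a * K) := by ring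
    have h1' : HT (m - n) (-b) n (-b) b S := by
      convert h1 using 2 <;> ring
    have h2' : HM (n - m) (-b) n (-b) b S := by
      convert h2 using 2 <;> ring
    exact f1K n m b b _ _ S (by omega) (by omega) (by omega) (by rw [e3]; omega) h1' h2' hbar
  have l7 := l6.swap
  rw [cp_sw_BTp] at l7
  have l8 := l7.shift (4 * n - 2 * m) (b + (3 * n - m)) (4 * n) (by rw [abs_le]; omega)
    (by rw [abs_le]; omega)
  rw [cp_LRp] at l8
  refine ⟨6 * n - 2 * m, by omega, by omega, ((l8.rad (s := 31 * n) (by omega)).mono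
    fun S hS => ?_).le (le_of_eq (by ring))⟩
  have e1 : -(4 * (n : ℤ) - 2 * m) + (4 * n - 2 * m) = 0 := by ring
  have e2 : (4 * (n : ℤ) - 2 * m) + (4 * n - 2 * m) = 8 * n - 4 * m := by ring
  have e3 : -(b : ℤ) - (3 * n - m) + (b + (3 * n - m)) = 0 := by ring
  have e4 : -(b : ℤ) + (3 * n - m) + (b + (3 * n - m)) = 6 * n - 2 * m := by ring
  rw [e1, e2, e3, e4] at hS
  exact geo.mono 0 0 _ _ 0 0 _ _ S le_rfl (by omega) (by omega) le_rfl le_rfl hS

end At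

end Vale.Agent.P153.R2.KPOS.H536
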